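import Vale.Agent.P117.EM.Lin
import Mathlib.Analysis.Normed.Operator.Extend

/-! Convergence of the ellipsoidal means: uniform convergence on Schwartz functions, interpolation,
extension to `L^p`. -/

open MeasureTheory Complex Filter
open scoped ENNReal NNReal FourierTransform SchwartzMap RealInnerProductSpace Topology

namespace Vale.Agent.P117.EM

/-- the filter `‖A‖ → 0` -/
noncomputable def fl : Filter (R3 ≃L[ℝ] R3) := comap (fun A : R3 ≃L[ℝ] R3 => ‖(A : R3 →L[ℝ] R3)‖) (𝓝 0)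

instance : fl.IsCountablyGenerated := by unfold fl; infer_instance

section Symbol

variable {δ : ℝ}

theorem sy_norm_le (hδ : 0 < δ) (A : R3 ≃L[ℝ] R3) (ξ : R3) :
    ‖((max (1 - ‖A ξ‖ ^ 2) 0 ^ δ : ℝ) : ℂ)‖ ≤ 1 := by
  rw [Complex.norm_real, Real.norm_eq_abs, abs_of_nonneg (Real.rpow_nonneg (le_max_right _ _) _)]
  exact Real.rpow_le_one (le_max_right _ _)
    (max_le (by nlinarith [sq_nonneg ‖A ξ‖]) zero_le_one) hδ.le

theorem sy_cont (hδ : 0 < δ) (A : R3 ≃L[ℝ] R3) :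
    Continuous fun ξ : R3 => ((max (1 - ‖A ξ‖ ^ 2) 0 ^ δ : ℝ) : ℂ) := by
  refine Complex.continuous_ofReal.comp ?_
  exact (by fun_prop : Continuous fun ξ : R3 => max (1 - ‖A ξ‖ ^ 2) 0).rpow_const fun _ => Or.inr hδ.le

theorem sy_tendsto (hδ : 0 < δ) (ξ : R3) :
    Tendsto (fun A : R3 ≃L[ℝ] R3 => ((max (1 - ‖A ξ‖ ^ 2) 0 ^ δ : ℝ) : ℂ)) fl (𝓝 1) := by
  have h0 : Tendsto (fun A : R3 ≃L[ℝ] R3 => ‖(A : R3 →L[ℝ] R3)‖) fl (𝓝 0) := tendsto_comap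
  have h1 : Tendsto (fun A : R3 ≃L[ℝ] R3 => ‖A ξ‖) fl (𝓝 0) := by
    refine squeeze_zero (fun A => norm_nonneg _) (fun A => (A : R3 →L[ℝ] R3).le_opNorm ξ) ?_
    simpa using h0.mul_const ‖ξ‖
  have h2 : Tendsto (fun A : R3 ≃L[ℝ] R3 => max (1 - ‖A ξ‖ ^ 2) 0) fl (𝓝 (max (1 - 0 ^ 2) 0)) :=
    ((h1.pow 2).const_sub 1).max tendsto_const_nhds
  have h3 : Tendsto (fun A : R3 ≃L[ℝ] R3 => (max (1 - ‖A ξ‖ ^ 2) 0) ^ δ) fl
      (𝓝 ((max (1 - 0 ^ 2) 0 : ℝ) ^ δ)) := h2.rpow_const (Or.inr hδ.le)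
  have h4 : ((max (1 - 0 ^ 2) 0 : ℝ) ^ δ) = 1 := by norm_num
  rw [h4] at h3
  exact (Complex.continuous_ofReal.tendsto 1).comp h3

end Symbol

section Linear

variable {δ : ℝ}

theorem integrable_sy (hδ : 0 < δ) (A : R3 ≃L[ℝ] R3) (f : 𝓢(R3, ℂ)) :
    Integrable fun ξ : R3 => ((max (1 - ‖A ξ‖ ^ 2) 0 ^ δ : ℝ) : ℂ) * 𝓕 (f : R3 → ℂ) ξ := by
  have h : Integrable (𝓕 (f : R3 → ℂ)) := by
    rw [← SchwartzMap.fourier_coe]
    exact (𝓕 f).integrable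
  exact h.bdd_mul (c := 1) (sy_cont hδ A).aestronglyMeasurable (Eventually.of_forall fun ξ => sy_norm_le hδ A ξ)

theorem fourierInv_bound (g : R3 → ℂ) (x : R3) : ‖𝓕⁻ g x‖ ≤ ∫ ξ, ‖g ξ‖ := by
  rw [Real.fourierInv_eq']
  refine (norm_integral_le_integral_norm _).trans (le_of_eq ?_)
  congr 1
  ext ξ
  rw [norm_smul, Complex.norm_exp_ofReal_mul_I, one_mul]

theorem fourierInv_add {g h : R3 → ℂ} (hg : Integrable g) (hh : Integrable h) (x : R3) :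
    𝓕⁻ (fun ξ => g ξ + h ξ) x = 𝓕⁻ g x + 𝓕⁻ h x := by
  have e : ∀ {u : R3 → ℂ}, Integrable u → Integrable fun v : R3 =>
      Complex.exp ((↑(2 * Real.pi * ⟪v, x⟫) * Complex.I)) • u v := by
    intro u hu
    refine hu.bdd_mul (c := 1) (by fun_prop) (Eventually.of_forall fun v => ?_)
    rw [Complex.norm_exp_ofReal_mul_I]
  simp only [Real.fourierInv_eq', smul_add]
  exact integral_add (e hg) (e hh)

theorem fourierInv_smul (c : ℂ) (g : R3 → ℂ) (x : R3) :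
    𝓕⁻ (fun ξ => c * g ξ) x = c * 𝓕⁻ g x := by
  simp only [Real.fourierInv_eq']
  rw [← integral_const_mul]
  congr 1
  ext v
  rw [smul_eq_mul, smul_eq_mul]
  ring

theorem bo_add (hδ : 0 < δ) (A : R3 ≃L[ℝ] R3) (f g : 𝓢(R3, ℂ)) (x : R3) :
    bo δ A (f + g : 𝓢(R3, ℂ)) x = bo δ A f x + bo δ A g x := by
  unfold bo
  rw [← fourierInv_add (integrable_sy hδ A f) (integrable_sy hδ A g)]
  refine congrArg (fun G : R3 → ℂ => 𝓕⁻ G x) (funext fun ξ => ?_)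
  have h : 𝓕 ((f + g : 𝓢(R3, ℂ)) : R3 → ℂ) ξ = 𝓕 (f : R3 → ℂ) ξ + 𝓕 (g : R3 → ℂ) ξ := by
    rw [← SchwartzMap.fourier_coe, FourierTransform.fourier_add, add_apply,
      SchwartzMap.fourier_coe, SchwartzMap.fourier_coe]
  rw [h, mul_add]

theorem bo_smul (A : R3 ≃L[ℝ] R3) (c : ℂ) (f : 𝓢(R3, ℂ)) (x : R3) :
    bo δ A (c • f : 𝓢(R3, ℂ)) x = c * bo δ A f x := by
  unfold bo
  rw [← fourierInv_smul]
  refine congrArg (fun G : R3 → ℂ => 𝓕⁻ G x) (funext fun ξ => ?_)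
  have h : 𝓕 ((c • f : 𝓢(R3, ℂ)) : R3 → ℂ) ξ = c * 𝓕 (f : R3 → ℂ) ξ := by
    rw [← SchwartzMap.fourier_coe, FourierTransform.fourier_smul, smul_apply,
      SchwartzMap.fourier_coe, smul_eq_mul]
  rw [h]
  ring

theorem bo_continuous (hδ : 0 < δ) (A : R3 ≃L[ℝ] R3) (f : 𝓢(R3, ℂ)) : Continuous (bo δ A f) := by
  unfold bo
  have h := Real.fourierInv_eq_fourier_comp_neg
    (fun ξ => ((max (1 - ‖A ξ‖ ^ 2) 0 ^ δ : ℝ) : ℂ) * 𝓕 (f : R3 → ℂ) ξ)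
  rw [h]
  refine VectorFourier.fourierIntegral_continuous Real.continuous_fourierChar
    (by exact continuous_inner) ?_
  exact (integrable_sy hδ A f).comp_neg

/-- the error in the supremum norm -/
theorem sup_bound (hδ : 0 < δ) (A : R3 ≃L[ℝ] R3) (f : 𝓢(R3, ℂ)) (x : R3) :
    ‖bo δ A f x - f x‖ ≤ ∫ ξ, ‖((max (1 - ‖A ξ‖ ^ 2) 0 ^ δ : ℝ) : ℂ) - 1‖ * ‖𝓕 (f : R3 → ℂ) ξ‖ := by
  have hF : Integrable (𝓕 (f : R3 → ℂ)) := by
    rw [← SchwartzMap.fourier_coe]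
    exact (𝓕 f).integrable
  have h1 : f x = 𝓕⁻ (𝓕 (f : R3 → ℂ)) x := by
    rw [f.continuous.fourierInv_fourier_eq f.integrable hF]
  have h2 : bo δ A f x = 𝓕⁻ (fun ξ => (((max (1 - ‖A ξ‖ ^ 2) 0 ^ δ : ℝ) : ℂ) - 1) * 𝓕 (f : R3 → ℂ) ξ) x +
      𝓕⁻ (𝓕 (f : R3 → ℂ)) x := by
    rw [← fourierInv_add _ hF]
    · unfold bo
      refine congrArg (fun G : R3 → ℂ => 𝓕⁻ G x) (funext fun ξ => ?_)
      ring
    · have := (integrable_sy hδ A f).sub hF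
      refine this.congr (Eventually.of_forall fun ξ => ?_)
      simp only [Pi.sub_apply]
      ring
  rw [h2, ← h1, add_sub_cancel_right]
  refine (fourierInv_bound _ _).trans (le_of_eq ?_)
  congr 1
  ext ξ
  rw [norm_mul]

theorem sup_tendsto (hδ : 0 < δ) (f : 𝓢(R3, ℂ)) :
    Tendsto (fun A : R3 ≃L[ℝ] R3 =>
      ∫ ξ, ‖((max (1 - ‖A ξ‖ ^ 2) 0 ^ δ : ℝ) : ℂ) - 1‖ * ‖𝓕 (f : R3 → ℂ) ξ‖) fl (𝓝 0) := by
  have hF : Integrable (𝓕 (f : R3 → ℂ)) := by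
    rw [← SchwartzMap.fourier_coe]
    exact (𝓕 f).integrable
  have h := tendsto_integral_filter_of_dominated_convergence (μ := (volume : Measure R3)) (l := fl)
    (F := fun (A : R3 ≃L[ℝ] R3) ξ => ‖((max (1 - ‖A ξ‖ ^ 2) 0 ^ δ : ℝ) : ℂ) - 1‖ * ‖𝓕 (f : R3 → ℂ) ξ‖)
    (f := fun _ => 0) (fun ξ => 2 * ‖𝓕 (f : R3 → ℂ) ξ‖) ?_ ?_ ?_ ?_
  · simpa using h
  · refine Eventually.of_forall fun A => ?_
    exact (((sy_cont hδ A).sub continuous_const).norm.aestronglyMeasurable).mul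
      hF.aestronglyMeasurable.norm
  · refine Eventually.of_forall fun A => Eventually.of_forall fun ξ => ?_
    rw [norm_mul, norm_norm, norm_norm]
    refine mul_le_mul_of_nonneg_right ?_ (norm_nonneg _)
    refine (norm_sub_le _ _).trans ?_
    have := sy_norm_le hδ A ξ
    rw [norm_one]
    linarith
  · exact hF.norm.const_mul 2
  · refine Eventually.of_forall fun ξ => ?_
    have h1 := ((sy_tendsto hδ ξ).sub_const 1).norm.mul_const ‖𝓕 (f : R3 → ℂ) ξ‖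
    simpa using h1

end Linear

section Interp

/-- the elementary interpolation inequality between `L^{r₁}` and `L^∞` -/
theorem eLpNorm_interp {g : R3 → ℂ} {b r r1 : ℝ} (hgb : ∀ x, ‖g x‖ ≤ b) (hr1 : 0 < r1)
    (hr : r1 < r) :
    eLpNorm g (ENNReal.ofReal r) volume ≤ ENNReal.ofReal b ^ ((r - r1) / r) *
      eLpNorm g (ENNReal.ofReal r1) volume ^ (r1 / r) := by
  have hr0 : 0 < r := hr1.trans hr
  have e0 : ∀ s : ℝ, 0 < s → eLpNorm g (ENNReal.ofReal s) volume =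
      (∫⁻ x, ‖g x‖ₑ ^ s) ^ (1 / s) := by
    intro s hs
    rw [eLpNorm_eq_lintegral_rpow_enorm_toReal (by
      rw [Ne, ENNReal.ofReal_eq_zero, not_le]; exact hs) ENNReal.ofReal_ne_top,
      ENNReal.toReal_ofReal hs.le]
  rw [e0 r hr0, e0 r1 hr1]
  have h1 : ∫⁻ x, ‖g x‖ₑ ^ r ≤ ENNReal.ofReal b ^ (r - r1) * ∫⁻ x, ‖g x‖ₑ ^ r1 := by
    rw [← lintegral_const_mul' _ _ (ENNReal.rpow_ne_top_of_nonneg (by linarith) ENNReal.ofReal_ne_top)]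
    refine lintegral_mono fun x => ?_
    have h2 : ‖g x‖ₑ ≤ ENNReal.ofReal b := by
      rw [← ofReal_norm]
      exact ENNReal.ofReal_le_ofReal (hgb x)
    calc ‖g x‖ₑ ^ r = ‖g x‖ₑ ^ ((r - r1) + r1) := by congr 1; ring
      _ = ‖g x‖ₑ ^ (r - r1) * ‖g x‖ₑ ^ r1 := ENNReal.rpow_add_of_nonneg _ _ (by linarith) hr1.le
      _ ≤ ENNReal.ofReal b ^ (r - r1) * ‖g x‖ₑ ^ r1 := by
          gcongr
  calc (∫⁻ x, ‖g x‖ₑ ^ r) ^ (1 / r)
      ≤ (ENNReal.ofReal b ^ (r - r1) * ∫⁻ x, ‖g x‖ₑ ^ r1) ^ (1 / r) :=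
        ENNReal.rpow_le_rpow h1 (by positivity)
    _ = (ENNReal.ofReal b ^ (r - r1)) ^ (1 / r) * (∫⁻ x, ‖g x‖ₑ ^ r1) ^ (1 / r) :=
        ENNReal.mul_rpow_of_nonneg _ _ (by positivity)
    _ = ENNReal.ofReal b ^ ((r - r1) / r) * ((∫⁻ x, ‖g x‖ₑ ^ r1) ^ (1 / r1)) ^ (r1 / r) := by
        rw [← ENNReal.rpow_mul, ← ENNReal.rpow_mul]
        congr 2
        · ring
        · field_simp

end Interp

end Vale.Agent.P117.EM
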