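import Mathlib.Analysis.Distribution.SchwartzSpace.Fourier

/-! Definitions: the Bochner-Riesz operators of the unit ball and of ellipsoids, and the convergence of
the ellipsoidal means. -/

open MeasureTheory Filter
open scoped ENNReal NNReal FourierTransform SchwartzMap Topology

namespace Vale.Agent.P117.EM

/-- three-dimensional euclidean space -/
abbrev R3 := EuclideanSpace ℝ (Fin 3)

/-- the invertible linear maps of `ℝ³` -/
abbrev GL3 := R3 ≃L[ℝ] R3

/-- the operator norm of an invertible linear map -/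
noncomputable def opNorm (A : GL3) : ℝ := ‖(A : R3 →L[ℝ] R3)‖

/-- the norm of `L^p(ℝ³)` -/
noncomputable def lpNorm (p : ℝ≥0∞) (f : R3 → ℂ) : ℝ≥0∞ := eLpNorm f p volume

/-- the Bochner-Riesz operator `T_δ`: the inverse Fourier transform of `(1 - |ξ|²)_+^δ 𝓕 f(ξ)` -/
noncomputable def bochnerRiesz (δ : ℝ) (f : R3 → ℂ) : R3 → ℂ :=
  𝓕⁻ fun ξ : R3 => ((max (1 - ‖ξ‖ ^ 2) 0 ^ δ : ℝ) : ℂ) * 𝓕 f ξ

/-- the Bochner-Riesz operator of the ellipsoid `|A ξ| < 1`, for an invertible linear map `A` -/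
noncomputable def ellipsoidal (δ : ℝ) (A : GL3) (f : R3 → ℂ) : R3 → ℂ :=
  𝓕⁻ fun ξ : R3 => ((max (1 - ‖A ξ‖ ^ 2) 0 ^ δ : ℝ) : ℂ) * 𝓕 f ξ

/-- `v` is the value at `u` of the continuous extension of `ellipsoidal δ A` to `L^p(ℝ³)`: whenever Schwartz functions
`f n` converge to `u` in `L^p`, the functions `ellipsoidal δ A (f n)` converge to `v` in `L^p` -/
def IsValue (p : ℝ≥0∞) (δ : ℝ) (A : GL3) (u v : R3 → ℂ) : Prop :=
  ∀ f : ℕ → 𝓢(R3, ℂ), Tendsto (fun n => lpNorm p fun x => f n x - u x) atTop (𝓝 0) →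
    Tendsto (fun n => lpNorm p fun x => ellipsoidal δ A (f n) x - v x) atTop (𝓝 0)

/-- the ellipsoidal Bochner-Riesz means `v A` of every `u` in `L^p(ℝ³)` exist, and they converge to `u` in `L^p` as
the norm of `A` tends to zero -/
def MeansConverge (p : ℝ≥0∞) (δ : ℝ) : Prop :=
  ∀ u : R3 → ℂ, MemLp u p → ∃ v : GL3 → R3 → ℂ, (∀ A, MemLp (v A) p ∧ IsValue p δ A u (v A)) ∧
    Tendsto (fun A => lpNorm p fun x => v A x - u x) (comap opNorm (𝓝 0)) (𝓝 0)

end Vale.Agent.P117.EM
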