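import Vale.Agent.P117.EM.Conv

/-! Extension of the ellipsoidal operators to `L^p` and convergence of the means. -/

open MeasureTheory Complex Filter
open scoped ENNReal NNReal FourierTransform SchwartzMap RealInnerProductSpace Topology

namespace Vale.Agent.P117.EM

section Op

variable {δ : ℝ} {p : ℝ≥0∞} {C : ℝ≥0}

theorem memLp_bo (hδ : 0 < δ)
    (hC : ∀ (A : R3 ≃L[ℝ] R3) (f : 𝓢(R3, ℂ)), eLpNorm (bo δ A f) p volume ≤ C * eLpNorm f p volume)
    (A : R3 ≃L[ℝ] R3) (f : 𝓢(R3, ℂ)) : MemLp (bo δ A f) p volume :=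
  ⟨(bo_continuous hδ A f).aestronglyMeasurable, (hC A f).trans_lt
    (ENNReal.mul_lt_top ENNReal.coe_lt_top (f.eLpNorm_lt_top p volume))⟩

variable [Fact (1 ≤ p)]

/-- the operator on Schwartz functions with values in `L^p` -/
noncomputable def boL (hδ : 0 < δ)
    (hC : ∀ (A : R3 ≃L[ℝ] R3) (f : 𝓢(R3, ℂ)), eLpNorm (bo δ A f) p volume ≤ C * eLpNorm f p volume)
    (A : R3 ≃L[ℝ] R3) : 𝓢(R3, ℂ) →ₗ[ℂ] Lp ℂ p (volume : Measure R3) where
  toFun f := (memLp_bo hδ hC A f).toLp (bo δ A f)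
  map_add' f g := by
    rw [← MemLp.toLp_add]
    refine MemLp.toLp_congr _ _ (Eventually.of_forall fun x => ?_)
    exact bo_add hδ A f g x
  map_smul' c f := by
    rw [RingHom.id_apply, ← MemLp.toLp_const_smul]
    refine MemLp.toLp_congr _ _ (Eventually.of_forall fun x => ?_)
    exact bo_smul A c f x

theorem boL_apply (hδ : 0 < δ)
    (hC : ∀ (A : R3 ≃L[ℝ] R3) (f : 𝓢(R3, ℂ)), eLpNorm (bo δ A f) p volume ≤ C * eLpNorm f p volume)
    (A : R3 ≃L[ℝ] R3) (f : 𝓢(R3, ℂ)) :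
    boL hδ hC A f = (memLp_bo hδ hC A f).toLp (bo δ A f) := rfl

/-- the embedding of the Schwartz functions -/
noncomputable def emb (p : ℝ≥0∞) [Fact (1 ≤ p)] : 𝓢(R3, ℂ) →ₗ[ℂ] Lp ℂ p (volume : Measure R3) :=
  (SchwartzMap.toLpCLM ℂ ℂ p volume : 𝓢(R3, ℂ) →L[ℂ] Lp ℂ p (volume : Measure R3))

theorem emb_apply (f : 𝓢(R3, ℂ)) : emb p f = f.toLp p := rfl

theorem emb_dense (hp : p ≠ ⊤) : DenseRange (emb p) :=
  SchwartzMap.denseRange_toLpCLM (E := R3) (F := ℂ) hp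

theorem boL_norm (hδ : 0 < δ)
    (hC : ∀ (A : R3 ≃L[ℝ] R3) (f : 𝓢(R3, ℂ)), eLpNorm (bo δ A f) p volume ≤ C * eLpNorm f p volume)
    (A : R3 ≃L[ℝ] R3) (f : 𝓢(R3, ℂ)) : ‖boL hδ hC A f‖ ≤ C * ‖emb p f‖ := by
  rw [boL_apply, emb_apply, Lp.norm_toLp, SchwartzMap.norm_toLp, ← ENNReal.coe_toReal,
    ← ENNReal.toReal_mul]
  exact ENNReal.toReal_mono (ENNReal.mul_ne_top ENNReal.coe_ne_top (f.eLpNorm_lt_top p volume).ne)
    (hC A f)

/-- the extension to `L^p` -/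
noncomputable def ext (hδ : 0 < δ)
    (hC : ∀ (A : R3 ≃L[ℝ] R3) (f : 𝓢(R3, ℂ)), eLpNorm (bo δ A f) p volume ≤ C * eLpNorm f p volume)
    (A : R3 ≃L[ℝ] R3) : Lp ℂ p (volume : Measure R3) →L[ℂ] Lp ℂ p (volume : Measure R3) :=
  (boL hδ hC A).extendOfNorm (emb p)

theorem ext_apply (hp : p ≠ ⊤) (hδ : 0 < δ)
    (hC : ∀ (A : R3 ≃L[ℝ] R3) (f : 𝓢(R3, ℂ)), eLpNorm (bo δ A f) p volume ≤ C * eLpNorm f p volume)
    (A : R3 ≃L[ℝ] R3) (f : 𝓢(R3, ℂ)) :
    ext hδ hC A (f.toLp p) = (memLp_bo hδ hC A f).toLp (bo δ A f) := by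
  have h := LinearMap.extendOfNorm_eq (f := boL hδ hC A) (e := emb p) (emb_dense hp)
    ⟨C, boL_norm hδ hC A⟩ f
  rw [emb_apply, boL_apply] at h
  exact h

theorem ext_norm (hp : p ≠ ⊤) (hδ : 0 < δ)
    (hC : ∀ (A : R3 ≃L[ℝ] R3) (f : 𝓢(R3, ℂ)), eLpNorm (bo δ A f) p volume ≤ C * eLpNorm f p volume)
    (A : R3 ≃L[ℝ] R3) : ‖ext hδ hC A‖ ≤ C := by
  have h := LinearMap.opNorm_extendOfNorm_le (f := boL hδ hC A) (e := emb p) (emb_dense hp)
    C.coe_nonneg (boL_norm hδ hC A)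
  exact h

/-- convergence on all of `L^p` from convergence on Schwartz functions -/
theorem tendsto_ext (hp : p ≠ ⊤) (hδ : 0 < δ)
    (hC : ∀ (A : R3 ≃L[ℝ] R3) (f : 𝓢(R3, ℂ)), eLpNorm (bo δ A f) p volume ≤ C * eLpNorm f p volume)
    (h : ∀ f : 𝓢(R3, ℂ), Tendsto (fun A => eLpNorm (fun x => bo δ A f x - f x) p volume) fl (𝓝 0))
    (u : Lp ℂ p (volume : Measure R3)) : Tendsto (fun A => ext hδ hC A u) fl (𝓝 u) := by
  rw [tendsto_iff_norm_sub_tendsto_zero]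
  refine squeeze_zero' (g := fun A => ‖ext hδ hC A u - u‖) (Eventually.of_forall fun A => norm_nonneg _)
    (Eventually.of_forall fun A => le_rfl) ?_
  rw [Metric.tendsto_nhds]
  intro ε hε
  obtain ⟨f, hf⟩ := (emb_dense hp).exists_dist_lt u (show 0 < ε / (2 * (C + 1)) by positivity)
  rw [emb_apply] at hf
  have h1 := h f
  have h2 : ∀ᶠ A in fl, eLpNorm (fun x => bo δ A f x - f x) p volume < ENNReal.ofReal (ε / 2) :=
    (tendsto_order.1 h1).2 _ (by simpa using half_pos hε)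
  filter_upwards [h2] with A hA
  rw [Real.dist_eq, sub_zero, abs_of_nonneg (norm_nonneg _)]
  have h3 : ext hδ hC A (f.toLp p volume) - f.toLp p volume =
      ((memLp_bo hδ hC A f).sub (f.memLp p volume)).toLp (bo δ A f - (f : R3 → ℂ)) := by
    rw [ext_apply hp, MemLp.toLp_sub]
    rfl
  have h4 : ‖ext hδ hC A (f.toLp p volume) - f.toLp p volume‖ < ε / 2 := by
    rw [h3, Lp.norm_toLp]
    exact (ENNReal.lt_ofReal_iff_toReal_lt hA.ne_top).1 hA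
  have h5 : ext hδ hC A u - u = ext hδ hC A (u - f.toLp p volume) +
      (ext hδ hC A (f.toLp p volume) - f.toLp p volume) - (u - f.toLp p volume) := by
    rw [map_sub]; abel
  have h6 : ‖ext hδ hC A (u - f.toLp p volume)‖ ≤ C * ‖u - f.toLp p volume‖ :=
    ((ext hδ hC A).le_opNorm _).trans (mul_le_mul_of_nonneg_right (ext_norm hp hδ hC A) (norm_nonneg _))
  have h7 : ‖u - f.toLp p volume‖ < ε / (2 * (C + 1)) := by rw [← dist_eq_norm]; exact hf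
  have hC0 : (0 : ℝ) < C + 1 := by positivity
  calc ‖ext hδ hC A u - u‖ ≤ ‖ext hδ hC A (u - f.toLp p volume)‖ + ‖ext hδ hC A (f.toLp p volume) - f.toLp p volume‖ +
        ‖u - f.toLp p volume‖ := by
        rw [h5]
        exact (norm_sub_le _ _).trans (add_le_add (norm_add_le _ _) le_rfl)
    _ < (C + 1) * (ε / (2 * (C + 1))) + ε / 2 := by
        have h8 := mul_lt_mul_of_pos_left h7 hC0
        linarith
    _ = ε := by field_simp; ring

end Op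

section Conv

/-- a smaller exponent -/
theorem exists_exponent {r δ : ℝ} (hr : 1 < r) (hδ : max (3 * |1 / r - 1 / 2| - 1 / 2) 0 < δ) :
    ∃ r1 : ℝ, 1 ≤ r1 ∧ r1 < r ∧ max (3 * |1 / r1 - 1 / 2| - 1 / 2) 0 < δ := by
  have hr0 : 0 < r := by linarith
  have h1 : 1 / r < 1 := (div_lt_one hr0).2 hr
  set c := max (3 * |1 / r - 1 / 2| - 1 / 2) 0 with hc
  set t := min (1 - 1 / r) ((δ - c) / 4) with ht
  have ht0 : 0 < t := lt_min (by linarith) (by linarith)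
  have ht1 : t ≤ 1 - 1 / r := min_le_left _ _
  have ht2 : t ≤ (δ - c) / 4 := min_le_right _ _
  have hs0 : 0 < 1 / r := by positivity
  have hs : 0 < 1 / r + t := by linarith
  refine ⟨1 / (1 / r + t), ?_, ?_, ?_⟩
  · rw [le_div_iff₀ hs]; linarith
  · rw [div_lt_iff₀ hs]
    have : r * (1 / r) = 1 := by field_simp
    nlinarith
  · rw [one_div_one_div]
    have h2 : |1 / r + t - 1 / 2| ≤ |1 / r - 1 / 2| + t := by
      have := abs_add_le (1 / r - 1 / 2) t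
      rw [abs_of_pos ht0] at this
      calc |1 / r + t - 1 / 2| = |1 / r - 1 / 2 + t| := by congr 1; ring
        _ ≤ _ := this
    have h3 : 3 * |1 / r - 1 / 2| - 1 / 2 ≤ c := le_max_left _ _
    have h4 : 0 ≤ c := le_max_right _ _
    refine max_lt ?_ ?_ <;> linarith

/-- convergence for Schwartz functions -/
theorem tendsto_schwartz {δ r r1 : ℝ} (hδ : 0 < δ) (hr1 : 1 ≤ r1) (hr : r1 < r) {C : ℝ≥0}
    (hC : ∀ (A : R3 ≃L[ℝ] R3) (f : 𝓢(R3, ℂ)), eLpNorm (bo δ A f) (ENNReal.ofReal r1) volume ≤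
      C * eLpNorm f (ENNReal.ofReal r1) volume) (f : 𝓢(R3, ℂ)) :
    Tendsto (fun A => eLpNorm (fun x => bo δ A f x - f x) (ENNReal.ofReal r) volume) fl (𝓝 0) := by
  have h10 : 0 < r1 := by linarith
  have hr0 : 0 < r := by linarith
  set K : ℝ≥0∞ := (C + 1) * eLpNorm f (ENNReal.ofReal r1) volume with hK
  have hKt : K ≠ ⊤ := ENNReal.mul_ne_top (by simp) (f.eLpNorm_lt_top _ volume).ne
  have h1 : ∀ A : R3 ≃L[ℝ] R3, eLpNorm (fun x => bo δ A f x - f x) (ENNReal.ofReal r1) volume ≤ K := by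
    intro A
    have h2 : eLpNorm (bo δ A f - (f : R3 → ℂ)) (ENNReal.ofReal r1) volume ≤
        eLpNorm (bo δ A f) (ENNReal.ofReal r1) volume + eLpNorm f (ENNReal.ofReal r1) volume :=
      eLpNorm_sub_le (bo_continuous hδ A f).aestronglyMeasurable f.continuous.aestronglyMeasurable
        (by rw [← ENNReal.ofReal_one]; exact ENNReal.ofReal_le_ofReal hr1)
    refine h2.trans ((add_le_add (hC A f) le_rfl).trans (le_of_eq ?_))
    rw [hK, add_mul, one_mul]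
  have h2 : ∀ A : R3 ≃L[ℝ] R3, eLpNorm (fun x => bo δ A f x - f x) (ENNReal.ofReal r) volume ≤
      ENNReal.ofReal (∫ ξ, ‖((max (1 - ‖A ξ‖ ^ 2) 0 ^ δ : ℝ) : ℂ) - 1‖ * ‖𝓕 (f : R3 → ℂ) ξ‖) ^ ((r - r1) / r) *
        K ^ (r1 / r) := by
    intro A
    refine (eLpNorm_interp (fun x => sup_bound hδ A f x) h10 hr).trans ?_
    gcongr
    exact h1 A
  refine tendsto_of_tendsto_of_tendsto_of_le_of_le tendsto_const_nhds ?_ (fun A => bot_le) h2
  have h3 : Tendsto (fun A : R3 ≃L[ℝ] R3 => ENNReal.ofReal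
      (∫ ξ, ‖((max (1 - ‖A ξ‖ ^ 2) 0 ^ δ : ℝ) : ℂ) - 1‖ * ‖𝓕 (f : R3 → ℂ) ξ‖) ^ ((r - r1) / r)) fl (𝓝 0) := by
    have h4 := ENNReal.tendsto_ofReal (sup_tendsto hδ f)
    rw [ENNReal.ofReal_zero] at h4
    have h5 := (ENNReal.continuous_rpow_const (y := (r - r1) / r)).tendsto 0 |>.comp h4
    rw [ENNReal.zero_rpow_of_pos (div_pos (by linarith) hr0)] at h5
    exact h5
  have h6 := ENNReal.Tendsto.mul_const (b := K ^ (r1 / r)) h3
    (Or.inr (ENNReal.rpow_ne_top_of_nonneg (by positivity) hKt))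
  rwa [zero_mul] at h6

end Conv

end Vale.Agent.P117.EM
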