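import Vale.Agent.P117.EM.Defs
import Mathlib.Analysis.Fourier.Inversion
import Mathlib.Analysis.Distribution.SchwartzSpace.Fourier
import Mathlib.Analysis.InnerProductSpace.Adjoint
import Mathlib.MeasureTheory.Measure.Lebesgue.EqHaar

/-! Linear changes of variables for the Bochner-Riesz multipliers of ellipsoids. -/

open MeasureTheory Complex Filter
open scoped ENNReal NNReal FourierTransform SchwartzMap RealInnerProductSpace Topology

namespace Vale.Agent.P117.EM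

/-- the symbol -/
noncomputable def sy (δ : ℝ) (A : R3 ≃L[ℝ] R3) (ξ : R3) : ℂ := ((max (1 - ‖A ξ‖ ^ 2) 0 ^ δ : ℝ) : ℂ)

/-- the operator of the ellipsoid `‖A ξ‖ < 1` -/
noncomputable def bo (δ : ℝ) (A : R3 ≃L[ℝ] R3) (f : R3 → ℂ) : R3 → ℂ :=
  𝓕⁻ fun ξ => ((max (1 - ‖A ξ‖ ^ 2) 0 ^ δ : ℝ) : ℂ) * 𝓕 f ξ

/-- the adjoint as an equivalence -/
noncomputable def adj (A : R3 ≃L[ℝ] R3) : R3 ≃L[ℝ] R3 :=
  ContinuousLinearEquiv.equivOfInverse (ContinuousLinearMap.adjoint (A : R3 →L[ℝ] R3))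
    (ContinuousLinearMap.adjoint (A.symm : R3 →L[ℝ] R3))
    (fun x => by
      refine ext_inner_right ℝ fun y => ?_
      rw [ContinuousLinearMap.adjoint_inner_left, ContinuousLinearMap.adjoint_inner_left]
      simp)
    (fun x => by
      refine ext_inner_right ℝ fun y => ?_
      rw [ContinuousLinearMap.adjoint_inner_left, ContinuousLinearMap.adjoint_inner_left]
      simp)

theorem inner_adj (A : R3 ≃L[ℝ] R3) (x y : R3) : ⟪adj A x, y⟫ = ⟪x, A y⟫ :=
  ContinuousLinearMap.adjoint_inner_left (A : R3 →L[ℝ] R3) y x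

theorem det_adj (A : R3 ≃L[ℝ] R3) :
    LinearMap.det ((adj A : R3 →L[ℝ] R3) : R3 →ₗ[ℝ] R3) =
      LinearMap.det ((A : R3 →L[ℝ] R3) : R3 →ₗ[ℝ] R3) := by
  set b := EuclideanSpace.basisFun (Fin 3) ℝ
  have h1 : ((adj A : R3 →L[ℝ] R3) : R3 →ₗ[ℝ] R3) =
      LinearMap.adjoint ((A : R3 →L[ℝ] R3) : R3 →ₗ[ℝ] R3) := by
    refine LinearMap.ext fun x => ?_
    refine ext_inner_right ℝ fun y => ?_
    rw [LinearMap.adjoint_inner_left]
    exact inner_adj A x y
  rw [h1, ← LinearMap.det_toMatrix b.toBasis, ← LinearMap.det_toMatrix b.toBasis,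
    LinearMap.toMatrix_adjoint, Matrix.det_conjTranspose]
  rfl

/-- the absolute value of the determinant of the inverse -/
noncomputable def dt (A : R3 ≃L[ℝ] R3) : ℝ := |(LinearMap.det ((A : R3 →L[ℝ] R3) : R3 →ₗ[ℝ] R3))⁻¹|

theorem det_ne (A : R3 ≃L[ℝ] R3) : LinearMap.det ((A : R3 →L[ℝ] R3) : R3 →ₗ[ℝ] R3) ≠ 0 :=
  (LinearEquiv.isUnit_det' A.toLinearEquiv).ne_zero

theorem dt_pos (A : R3 ≃L[ℝ] R3) : 0 < dt A := abs_pos.2 (inv_ne_zero (det_ne A))

theorem dt_adj (A : R3 ≃L[ℝ] R3) : dt (adj A) = dt A := by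
  unfold dt; rw [det_adj]

theorem map_volume (A : R3 ≃L[ℝ] R3) :
    (volume : Measure R3).map A = ENNReal.ofReal (dt A) • volume :=
  Measure.map_linearMap_addHaar_eq_smul_addHaar (f := ((A : R3 →L[ℝ] R3) : R3 →ₗ[ℝ] R3)) volume (det_ne A)

theorem integral_comp (A : R3 ≃L[ℝ] R3) (g : R3 → ℂ) :
    ∫ x, g (A x) = (dt A : ℂ) * ∫ x, g x := by
  have h := integral_map_equiv (μ := (volume : Measure R3)) A.toHomeomorph.toMeasurableEquiv g
  have h2 : (volume : Measure R3).map A.toHomeomorph.toMeasurableEquiv = ENNReal.ofReal (dt A) • volume :=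
    map_volume A
  rw [h2, integral_smul_measure, ENNReal.toReal_ofReal (dt_pos A).le] at h
  rw [← Complex.real_smul, h]
  rfl

theorem eLpNorm_comp (A : R3 ≃L[ℝ] R3) (g : R3 → ℂ) (p : ℝ≥0∞) :
    eLpNorm (fun x => g (A x)) p volume =
      ENNReal.ofReal (dt A) ^ (1 / p).toReal * eLpNorm g p volume := by
  have h := (A.toHomeomorph.toMeasurableEquiv.measurableEmbedding).eLpNorm_map_measure
    (g := g) (p := p) (μ := (volume : Measure R3))
  have h2 : (volume : Measure R3).map A.toHomeomorph.toMeasurableEquiv = ENNReal.ofReal (dt A) • volume :=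
    map_volume A
  rw [h2, eLpNorm_smul_measure_of_ne_zero (by
    rw [Ne, ENNReal.ofReal_eq_zero, not_le]; exact dt_pos A)] at h
  rw [← smul_eq_mul, h]
  rfl

theorem fourier_comp (B : R3 ≃L[ℝ] R3) (f : R3 → ℂ) (η : R3) :
    𝓕 (fun x => f (adj B x)) η = (dt B : ℂ) * 𝓕 f (B.symm η) := by
  rw [Real.fourier_eq', Real.fourier_eq', ← dt_adj, ← integral_comp (adj B)]
  congr 1
  ext x
  rw [inner_adj, ContinuousLinearEquiv.apply_symm_apply]

theorem bo_eq (δ : ℝ) (A : R3 ≃L[ℝ] R3) (f : R3 → ℂ) (x : R3) :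
    bo δ A f x = bo δ (ContinuousLinearEquiv.refl ℝ R3) (fun y => f (adj A y)) ((adj A).symm x) := by
  unfold bo
  rw [Real.fourierInv_eq', Real.fourierInv_eq']
  have h1 := integral_comp A (fun η => Complex.exp ((↑(2 * Real.pi * ⟪η, (adj A).symm x⟫) * Complex.I)) •
    (((max (1 - ‖(ContinuousLinearEquiv.refl ℝ R3) η‖ ^ 2) 0 ^ δ : ℝ) : ℂ) * 𝓕 f (A.symm η)))
  have h2 : ∀ η, Complex.exp ((↑(2 * Real.pi * ⟪η, (adj A).symm x⟫) * Complex.I)) •
    (((max (1 - ‖(ContinuousLinearEquiv.refl ℝ R3) η‖ ^ 2) 0 ^ δ : ℝ) : ℂ) *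
      𝓕 (fun y => f (adj A y)) η) = (dt A : ℂ) * (Complex.exp ((↑(2 * Real.pi * ⟪η, (adj A).symm x⟫) * Complex.I)) •
    (((max (1 - ‖(ContinuousLinearEquiv.refl ℝ R3) η‖ ^ 2) 0 ^ δ : ℝ) : ℂ) * 𝓕 f (A.symm η))) := by
    intro η
    rw [fourier_comp, smul_eq_mul, smul_eq_mul]
    ring
  simp only [h2]
  rw [integral_const_mul, ← h1]
  congr 1
  ext ξ
  have h3 : ⟪A ξ, (adj A).symm x⟫ = ⟪ξ, x⟫ := by
    rw [real_inner_comm, ← inner_adj, ContinuousLinearEquiv.apply_symm_apply, real_inner_comm]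
  rw [h3, ContinuousLinearEquiv.symm_apply_apply]
  rfl

theorem eLpNorm_bo (δ : ℝ) (A : R3 ≃L[ℝ] R3) (p : ℝ≥0∞) (f : 𝓢(R3, ℂ)) {C : ℝ≥0∞}
    (h : ∀ f : 𝓢(R3, ℂ), eLpNorm (bo δ (ContinuousLinearEquiv.refl ℝ R3) f) p volume ≤
      C * eLpNorm f p volume) :
    eLpNorm (bo δ A f) p volume ≤ C * eLpNorm f p volume := by
  set g : 𝓢(R3, ℂ) := SchwartzMap.compCLMOfContinuousLinearEquiv ℂ (adj A) f with hg
  have hgf : (g : R3 → ℂ) = fun y => f (adj A y) := rfl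
  have h1 : bo δ A f = fun x => bo δ (ContinuousLinearEquiv.refl ℝ R3) g ((adj A).symm x) := by
    ext x
    rw [hgf]
    exact bo_eq δ A f x
  have h2 : (ENNReal.ofReal (dt (adj A).symm)) ^ (1 / p).toReal * (ENNReal.ofReal (dt (adj A))) ^ (1 / p).toReal = 1 := by
    rw [← ENNReal.mul_rpow_of_nonneg _ _ ENNReal.toReal_nonneg, ← ENNReal.ofReal_mul (dt_pos _).le]
    have h3 : dt (adj A).symm * dt (adj A) = 1 := by
      unfold dt
      rw [← abs_mul, ← mul_inv, ← LinearMap.det_comp]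
      have h4 : (((adj A).symm : R3 →L[ℝ] R3) : R3 →ₗ[ℝ] R3) ∘ₗ ((adj A : R3 →L[ℝ] R3) : R3 →ₗ[ℝ] R3) =
          LinearMap.id := by
        ext x
        simp
      rw [h4, LinearMap.det_id]
      simp
    rw [h3, ENNReal.ofReal_one, ENNReal.one_rpow]
  have h5 : eLpNorm g p volume = (ENNReal.ofReal (dt (adj A))) ^ (1 / p).toReal * eLpNorm f p volume := by
    rw [hgf]
    exact eLpNorm_comp (adj A) f p
  rw [h1, eLpNorm_comp (adj A).symm]
  calc ENNReal.ofReal (dt (adj A).symm) ^ (1 / p).toReal *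
      eLpNorm (bo δ (ContinuousLinearEquiv.refl ℝ R3) g) p volume
      ≤ ENNReal.ofReal (dt (adj A).symm) ^ (1 / p).toReal * (C * eLpNorm g p volume) := by
        gcongr
        exact h g
    _ = (ENNReal.ofReal (dt (adj A).symm) ^ (1 / p).toReal * ENNReal.ofReal (dt (adj A)) ^ (1 / p).toReal) *
        (C * eLpNorm f p volume) := by rw [h5]; ring
    _ = C * eLpNorm f p volume := by rw [h2, one_mul]

end Vale.Agent.P117.EM
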